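import Vale.Agent.P137.Bdl.B1

namespace Vale.Agent.Results.P137.Both

/-- Endpoint gradient bounds for Hardy-Littlewood maximal operators: the uncentered operator on all
of `W^{1,1}` in every dimension, and the centered operator on the radial functions of `W^{1,1}` in
every dimension at least two. -/
theorem result (d : ℕ) (hd : 0 < d) :
    (∃ C : ℝ, Vale.Agent.P137.UncenteredBound (EuclideanSpace ℝ (Fin d)) C) ∧
    (2 ≤ d → ∃ C : ℝ, Vale.Agent.P137.RadialBound (EuclideanSpace ℝ (Fin d)) C) :=
  ⟨Vale.Agent.P137.uncenteredBound d hd, fun h => Vale.Agent.P137.radialBound d h⟩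

end Vale.Agent.Results.P137.Both
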