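import Vale.Agent.P137.Bdl.B1

namespace Vale.Agent.Results.P137.UncenteredFull

/-- Endpoint gradient bound for the uncentered Hardy-Littlewood maximal operator on all of
`W^{1,1}`, in every dimension. -/
theorem result (d : ℕ) (hd : 0 < d) :
    ∃ C : ℝ, Vale.Agent.P137.UncenteredBound (EuclideanSpace ℝ (Fin d)) C :=
  Vale.Agent.P137.uncenteredBound d hd

end Vale.Agent.Results.P137.UncenteredFull
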